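import Mathlib

namespace Vale.Agent.P113

open MeasureTheory Set

/-! ### Turing machines -/

/-- Head moves. -/
inductive Move : Type
  | left
  | stay
  | right
  deriving DecidableEq

/-- The displacement of the head. -/
def Move.shift : Move → ℤ
  | .left => -1
  | .stay => 0
  | .right => 1

/-- A deterministic one-tape Turing machine, given by its finite description. States and symbols
are named by natural numbers, the blank is `0`. An entry `((q, s), (q', s', m))` of the table says:
in state `q`, scanning `s`, write `s'`, move the head by `m` and enter state `q'`; the first entry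
for `(q, s)` counts. -/
structure Machine : Type where
  start : ℕ
  halting : List ℕ
  table : List ((ℕ × ℕ) × (ℕ × ℕ × Move))

/-- A configuration: state, position of the head, tape. -/
structure Config : Type where
  state : ℕ
  pos : ℤ
  tape : ℤ → ℕ

/-- One step. In a halting state nothing changes; without an entry for the current state and symbol
nothing changes either (the machine is stuck, without halting). -/
def Machine.step (M : Machine) (c : Config) : Config :=
  if c.state ∈ M.halting then c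
  else match M.table.lookup (c.state, c.tape c.pos) with
    | none => c
    | some (q, s, m) => ⟨q, c.pos + m.shift, Function.update c.tape c.pos s⟩

/-- The initial configuration: the input stands on cells `0, 1, …` of an otherwise blank two-sided
tape, with the head at cell `0`. -/
def Machine.init (M : Machine) (w : List ℕ) : Config :=
  ⟨M.start, 0, fun i => if 0 ≤ i then w.getD i.toNat 0 else 0⟩

/-- `M` reaches a halting state on input `w` after finitely many steps, possibly none. -/
def Machine.HaltsOn (M : Machine) (w : List ℕ) : Prop :=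
  ∃ n : ℕ, (M.step^[n] (M.init w)).state ∈ M.halting

/-! ### Admissible functions -/

/-- `ρ(s) = exp(-1/(1-s²))` for `|s| < 1` and `0` otherwise. -/
noncomputable def rho (s : ℝ) : ℝ := if |s| < 1 then Real.exp (-1 / (1 - s ^ 2)) else 0

/-- `κ`, the integral of `ρ`. -/
noncomputable def kappa : ℝ := ∫ s, rho s

/-- `σ(s)`, the integral of `ρ` up to `s`. -/
noncomputable def sigma (s : ℝ) : ℝ := ∫ r in Iic s, rho r

/-- `π_ℓ(s) = σ(s) - σ(s-ℓ)`. -/
noncomputable def plat (l s : ℝ) : ℝ := sigma s - sigma (s - l)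

/-- Rational numbers as they are written by an algorithm: numerator and denominator minus one. -/
structure Rt : Type where
  num : ℤ
  den : ℕ

/-- The rational number. -/
def Rt.val (r : Rt) : ℚ := r.num / (r.den + 1)

/-- A description of a bump: `pow` is `k`, `scale` is `a`, `shift` is `b`; the last entry is
`inl j` for `s ↦ s^k ρ^{(j)}(as-b)` and `inr ℓ` for `s ↦ s^k π_ℓ(as-b)`. -/
structure Bump : Type where
  pow : ℕ
  scale : Rt
  shift : Rt
  kind : ℕ ⊕ Rt

/-- The conditions `a ≠ 0` and `ℓ > 0`. -/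
def Bump.Valid (g : Bump) : Prop :=
  g.scale.val ≠ 0 ∧ ∀ l, g.kind = Sum.inr l → 0 < l.val

/-- The bump as a function. -/
noncomputable def Bump.eval (g : Bump) (s : ℝ) : ℝ :=
  s ^ g.pow * match g.kind with
    | .inl j => iteratedDeriv j rho (g.scale.val * s - g.shift.val)
    | .inr l => plat l.val (g.scale.val * s - g.shift.val)

/-- The periodization `P[g](y) = ∑_m g(y+m)`. -/
noncomputable def per (g : ℝ → ℝ) (y : ℝ) : ℝ := ∑' m : ℤ, g (y + m)

/-- A description of a term `c θ(t) h₁(x₁) h₂(x₂) h₃(x₃)` with `c = q ν^m κ^n ∏ ln rᵢ`. An entry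
`(false, g)` of `time` is the factor `g(t)`, an entry `(true, g)` is the factor `P[g](t)`; an entry
`g` of `space i` is the factor `P[g](xᵢ)`. -/
structure Term : Type where
  coef : Rt
  nuPow : ℕ
  kappaPow : ℤ
  logs : List Rt
  time : List (Bool × Bump)
  space : Fin 3 → List Bump

/-- The conditions on the rationals in a term. -/
def Term.Valid (τ : Term) : Prop :=
  (∀ r ∈ τ.logs, 0 < r.val) ∧ (∀ g ∈ τ.time, g.2.Valid) ∧ ∀ i, ∀ g ∈ τ.space i, g.Valid

/-- The term is periodic: its `θ` is `1` or a product of periodizations only. -/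
def Term.isPeriodic (τ : Term) : Bool := τ.time.all fun g => g.1

/-- The value of a time factor. -/
noncomputable def timeFactor (g : Bool × Bump) (t : ℝ) : ℝ :=
  if g.1 then per g.2.eval t else g.2.eval t

/-- The term as a function of `t` and `x`. -/
noncomputable def Term.eval (ν : ℝ) (τ : Term) (t : ℝ) (x : Fin 3 → ℝ) : ℝ :=
  τ.coef.val * ν ^ τ.nuPow * kappa ^ τ.kappaPow * (τ.logs.map fun r => Real.log r.val).prod *
    (τ.time.map fun g => timeFactor g t).prod *
    ∏ i, ((τ.space i).map fun g => per g.eval (x i)).prod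

/-- The function given by a list of terms for each of the three components. -/
noncomputable def field (ν : ℝ) (L : Fin 3 → List Term) (t : ℝ) (x : Fin 3 → ℝ) : Fin 3 → ℝ :=
  fun i => ((L i).map fun τ => τ.eval ν t x).sum

/-! ### Codings of the finite data by natural numbers, through products, sums and lists -/

/-- The number of a move. -/
def Move.toFin : Move → Fin 3
  | .left => 0
  | .stay => 1
  | .right => 2

/-- The move with a given number. -/
def Move.ofFin (i : Fin 3) : Move := if i = 0 then .left else if i = 1 then .stay else .right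

theorem Move.ofFin_toFin : Function.LeftInverse Move.ofFin Move.toFin := by
  intro m
  cases m <;> rfl

theorem Move.toFin_ofFin : Function.RightInverse Move.ofFin Move.toFin := by
  intro i
  fin_cases i <;> rfl

/-- `Move` has three elements. -/
def Move.equiv : Move ≃ Fin 3 := ⟨Move.toFin, Move.ofFin, Move.ofFin_toFin, Move.toFin_ofFin⟩

instance : Primcodable Move := Primcodable.ofEquiv _ Move.equiv

/-- The components of a machine. -/
abbrev Machine.Tuple : Type := ℕ × List ℕ × List ((ℕ × ℕ) × (ℕ × ℕ × Move))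

def Machine.toTuple (M : Machine) : Machine.Tuple := (M.start, M.halting, M.table)

def Machine.ofTuple (p : Machine.Tuple) : Machine := ⟨p.1, p.2.1, p.2.2⟩

theorem Machine.ofTuple_toTuple : Function.LeftInverse Machine.ofTuple Machine.toTuple :=
  fun _ => rfl

theorem Machine.toTuple_ofTuple : Function.RightInverse Machine.ofTuple Machine.toTuple :=
  fun _ => rfl

/-- A machine is a triple. -/
def Machine.equiv : Machine ≃ Machine.Tuple :=
  ⟨Machine.toTuple, Machine.ofTuple, Machine.ofTuple_toTuple, Machine.toTuple_ofTuple⟩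

instance : Primcodable Machine := Primcodable.ofEquiv _ Machine.equiv

/-- The components of a rational. -/
abbrev Rt.Tuple : Type := ℤ × ℕ

def Rt.toTuple (r : Rt) : Rt.Tuple := (r.num, r.den)

def Rt.ofTuple (p : Rt.Tuple) : Rt := ⟨p.1, p.2⟩

theorem Rt.ofTuple_toTuple : Function.LeftInverse Rt.ofTuple Rt.toTuple := fun _ => rfl

theorem Rt.toTuple_ofTuple : Function.RightInverse Rt.ofTuple Rt.toTuple := fun _ => rfl

/-- A rational is a pair. -/
def Rt.equiv : Rt ≃ Rt.Tuple := ⟨Rt.toTuple, Rt.ofTuple, Rt.ofTuple_toTuple, Rt.toTuple_ofTuple⟩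

instance : Primcodable Rt := Primcodable.ofEquiv _ Rt.equiv

/-- The components of a bump. -/
abbrev Bump.Tuple : Type := ℕ × Rt × Rt × (ℕ ⊕ Rt)

def Bump.toTuple (g : Bump) : Bump.Tuple := (g.pow, g.scale, g.shift, g.kind)

def Bump.ofTuple (p : Bump.Tuple) : Bump := ⟨p.1, p.2.1, p.2.2.1, p.2.2.2⟩

theorem Bump.ofTuple_toTuple : Function.LeftInverse Bump.ofTuple Bump.toTuple := fun _ => rfl

theorem Bump.toTuple_ofTuple : Function.RightInverse Bump.ofTuple Bump.toTuple := fun _ => rfl

/-- A bump is a quadruple. -/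
def Bump.equiv : Bump ≃ Bump.Tuple :=
  ⟨Bump.toTuple, Bump.ofTuple, Bump.ofTuple_toTuple, Bump.toTuple_ofTuple⟩

instance : Primcodable Bump := Primcodable.ofEquiv _ Bump.equiv

/-- The components of a term. -/
abbrev Term.Tuple : Type :=
  Rt × ℕ × ℤ × List Rt × List (Bool × Bump) × (Fin 3 → List Bump)

def Term.toTuple (τ : Term) : Term.Tuple :=
  (τ.coef, τ.nuPow, τ.kappaPow, τ.logs, τ.time, τ.space)

def Term.ofTuple (p : Term.Tuple) : Term :=
  ⟨p.1, p.2.1, p.2.2.1, p.2.2.2.1, p.2.2.2.2.1, p.2.2.2.2.2⟩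

theorem Term.ofTuple_toTuple : Function.LeftInverse Term.ofTuple Term.toTuple := fun _ => rfl

theorem Term.toTuple_ofTuple : Function.RightInverse Term.ofTuple Term.toTuple := fun _ => rfl

/-- A term is a sextuple. -/
def Term.equiv : Term ≃ Term.Tuple :=
  ⟨Term.toTuple, Term.ofTuple, Term.ofTuple_toTuple, Term.toTuple_ofTuple⟩

instance : Primcodable Term := Primcodable.ofEquiv _ Term.equiv

/-! ### The Navier-Stokes system on the torus -/

/-- Period `1` in each of the three space variables. -/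
def Periodic3 {α : Type} (g : (Fin 3 → ℝ) → α) : Prop :=
  ∀ (x : Fin 3 → ℝ) (k : Fin 3 → ℤ), g (fun i => x i + k i) = g x

/-- `g'` is the derivative of `g` in the variable `xᵢ`, at every point. -/
def HasPD {E : Type} [NormedAddCommGroup E] [NormedSpace ℝ E]
    (i : Fin 3) (g g' : (Fin 3 → ℝ) → E) : Prop :=
  ∀ x, HasDerivAt (fun s => g (Function.update x i s)) (g' x) (x i)

/-- `g` is continuous on `[0,T] × 𝕋³`. -/
def ContOn {E : Type} [TopologicalSpace E] (T : ℝ) (g : ℝ → (Fin 3 → ℝ) → E) : Prop :=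
  ContinuousOn (fun z : ℝ × (Fin 3 → ℝ) => g z.1 z.2) (Icc 0 T ×ˢ univ)

/-- The velocity field `u` is periodic, `ut` is `∂ₜu`, `du i` is `∂ᵢu` and `ddu i j` is `∂ⱼ∂ᵢu` on
`[0,T] × 𝕋³`, and all these functions are continuous. -/
def IsVelocity (T : ℝ) (u ut : ℝ → (Fin 3 → ℝ) → (Fin 3 → ℝ))
    (du : Fin 3 → ℝ → (Fin 3 → ℝ) → (Fin 3 → ℝ))
    (ddu : Fin 3 → Fin 3 → ℝ → (Fin 3 → ℝ) → (Fin 3 → ℝ)) : Prop :=
  ContOn T u ∧ ContOn T ut ∧ (∀ i, ContOn T (du i)) ∧ (∀ i j, ContOn T (ddu i j)) ∧
    (∀ t ∈ Icc 0 T, Periodic3 (u t)) ∧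
    (∀ t ∈ Icc 0 T, ∀ x, HasDerivWithinAt (fun s => u s x) (ut t x) (Icc 0 T) t) ∧
    (∀ t ∈ Icc 0 T, ∀ i, HasPD i (u t) (du i t)) ∧
    (∀ t ∈ Icc 0 T, ∀ i j, HasPD j (du i t) (ddu i j t))

/-- The pressure `p` is periodic, with mean zero, and `dp i` is `∂ᵢp` on `[0,T] × 𝕋³`; these
functions are continuous. -/
def IsPressure (T : ℝ) (p : ℝ → (Fin 3 → ℝ) → ℝ) (dp : Fin 3 → ℝ → (Fin 3 → ℝ) → ℝ) : Prop :=
  ContOn T p ∧ (∀ i, ContOn T (dp i)) ∧ (∀ t ∈ Icc 0 T, Periodic3 (p t)) ∧
    (∀ t ∈ Icc 0 T, ∀ i, HasPD i (p t) (dp i t)) ∧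
    (∀ t ∈ Icc 0 T, ∫ x in Icc (0 : Fin 3 → ℝ) 1, p t x = 0)

/-- `(u, p)` is a classical solution on `[0,T] × 𝕋³`, with force `f`, viscosity `ν` and initial
velocity zero: `ut` is `∂ₜu`, `du i` is `∂ᵢu`, `ddu i j` is `∂ⱼ∂ᵢu` and `dp i` is `∂ᵢp`; all these,
`u` and `p` are continuous on `[0,T] × 𝕋³`, and `p` has mean zero. -/
def IsClassical (ν T : ℝ) (f u : ℝ → (Fin 3 → ℝ) → (Fin 3 → ℝ)) (p : ℝ → (Fin 3 → ℝ) → ℝ) : Prop :=
  ∃ ut du ddu dp, IsVelocity T u ut du ddu ∧ IsPressure T p dp ∧
    (∀ t ∈ Icc 0 T, ∀ x j, ut t x j + ∑ i, u t x i * du i t x j =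
      -dp j t x + ν * ∑ i, ddu i i t x j + f t x j) ∧
    (∀ t ∈ Icc 0 T, ∀ x, ∑ i, du i t x i = 0) ∧
    (∀ x, u 0 x = 0)

/-- `(u, p)` is a global smooth solution, unique among classical solutions on each `[0,T]`. -/
structure IsUniqueSmoothSolution (ν : ℝ) (f u : ℝ → (Fin 3 → ℝ) → (Fin 3 → ℝ))
    (p : ℝ → (Fin 3 → ℝ) → ℝ) : Prop where
  smooth_u : ContDiff ℝ (⊤ : ℕ∞) fun z : ℝ × (Fin 3 → ℝ) => u z.1 z.2
  smooth_p : ContDiff ℝ (⊤ : ℕ∞) fun z : ℝ × (Fin 3 → ℝ) => p z.1 z.2
  classical : ∀ T, 0 < T → IsClassical ν T f u p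
  unique : ∀ T, 0 < T → ∀ v q, IsClassical ν T f v q → ∀ t ∈ Icc 0 T, v t = u t ∧ q t = p t

/-- `X` is (a lift to `ℝ³` of) the trajectory of `a`. -/
def IsTrajectory (u : ℝ → (Fin 3 → ℝ) → (Fin 3 → ℝ)) (a : Fin 3 → ℝ) (X : ℝ → (Fin 3 → ℝ)) : Prop :=
  X 0 = a ∧ ∀ t ∈ Ici (0 : ℝ), HasDerivWithinAt X (u t (X t)) (Ici 0) t

/-- The projection `ℝ³ → 𝕋³`. -/
def proj (x : Fin 3 → ℝ) : Fin 3 → UnitAddCircle := fun i => (x i : UnitAddCircle)

/-- The image in `𝕋³` of the open box with the corners `l` and `r`. -/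
def openBox (l r : Fin 3 → ℚ) : Set (Fin 3 → UnitAddCircle) :=
  proj '' {x | ∀ i, (l i : ℝ) < x i ∧ x i < (r i : ℝ)}

/-! ### Force compilers -/

/-- `F` is a force compiler: an algorithm which on every machine and every input puts out, for each
of the three components, a finite list of terms; there is a time `T₀` after which all terms which
are not periodic vanish, and the list of the periodic terms depends on the machine only. -/
structure IsForceCompiler (F : Machine → List ℕ → Fin 3 → List Term) : Prop where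
  computable : Computable₂ F
  valid : ∀ M w i, ∀ τ ∈ F M w i, τ.Valid
  vanish : ∃ T₀ : ℝ, ∀ M w i, ∀ τ ∈ F M w i, τ.isPeriodic = false →
    ∀ ν t : ℝ, T₀ ≤ t → ∀ x, τ.eval ν t x = 0
  periodic : ∀ M w w' i, (F M w i).filter Term.isPeriodic = (F M w' i).filter Term.isPeriodic

/-- The statement to prove (full positive answer to Q1, for every real `ν > 0`, and with a compiler,
a point and a box which do not depend on `ν`). -/
def MainStatement : Prop :=
  ∃ (a l r : Fin 3 → ℚ) (F : Machine → List ℕ → Fin 3 → List Term),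
    (∀ i, l i < r i) ∧ IsForceCompiler F ∧
    ∀ ν : ℝ, 0 < ν → ∀ (M : Machine) (w : List ℕ),
      ∃ u p, IsUniqueSmoothSolution ν (field ν (F M w)) u p ∧
        ∃ X, IsTrajectory u (fun i => a i) X ∧
          (∀ Y, IsTrajectory u (fun i => a i) Y → ∀ t ∈ Ici (0 : ℝ), Y t = X t) ∧
          ((∃ t : ℝ, 0 ≤ t ∧ proj (X t) ∈ openBox l r) ↔ M.HaltsOn w)

end Vale.Agent.P113
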